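import Crest.Agent.X212.Nv5.Stm
import Crest.Agent.X212.Dr59.Rod
import Crest.Agent.X212.Cyl58.Hp

/-!
# X212 / Nv17 (helper17): tools on rod manifolds

* `wc_ip` (intersection numbers with the sign of the tube), `wf_ex` (same orders, same class), `hd_end`;
* `not_surj` (a killed angle class does not extend), `fn_fn`;
* `csE`, `csG`, `ipEE`, `exEG` on the word `wZ`.
-/

set_option autoImplicit false
set_option linter.unusedSectionVars false

open Set Filter Topology Function Module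
open scoped ContDiff Manifold Real
open Crest.Agent.R208 Crest.Agent.R208.FI
open Crest.Agent.R208.F hiding wd
open Crest.Agent.X212.Int54 (Ori SameOn rat_self)
open Crest.Agent.X212.Line51 hiding tp Uni
open Crest.Agent.X212.Orx52 Crest.Agent.X212.Rod53 Crest.Agent.X212.Dr59 Crest.Agent.X212.Nv5
open Crest.Agent.X212.Bor5.T (w1 w2)

noncomputable section

namespace Crest.Agent.X212.Nv17

theorem not_ex_oC : ¬Ex (𝓡 1) univ oC := fun h => by
  borelize Circle
  have r : ∀ x, Int54.rat oC oC x = 1 := fun x => rat_self (ori_oC.ne x)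
  exact (Cyl58.integ_pos ori_oC (fun x _ => ori_oC.sm x) (HasCompactSupport.of_compactSpace _)
    (fun x => (r x).symm ▸ zero_le_one) (x := 1) ((r 1).symm ▸ one_ne_zero)).ne' (Num57.integ_ex ori_oC h)

variable {EN HN : Type} [NormedAddCommGroup EN] [NormedSpace ℝ EN] [FiniteDimensional ℝ EN]
  [TopologicalSpace HN] {IN : ModelWithCorners ℝ EN HN} [IN.Boundaryless]
  {N : Type} [TopologicalSpace N] [ChartedSpace HN N] [IsManifold IN ∞ N] [T2Space N]
  {T : Tb IN N} {θ : N → Circle} {δ a b : Z2} {v v' : ℝ → Z2}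

theorem fn_fn {p : X T v'} (hp : p ∈ T.ag v' v) : fn T T id v v' (fn T T id v' v p) = p :=
  TE.fn_of (by rw [(TE.refl T).nf_fn hp]; simp)

/-- the angle class does not extend over a rod on which it has degree one -/
theorem not_surj (hθ : Ang T θ δ) (hu : Uni a b) (ha : dot δ a = 1) {t₀ t₁ : ℝ} (h₁ : t₁ ∈ Jr v a)
    {W : Set (X T v)} (hs : ∀ x ∈ W, CSm (𝓡 4) (thx T v θ δ) x) (h₀ : ∀ x, T.time v x = t₀ → x ∈ W) :
    ¬Surjective (res (I := 𝓡 4) (k := 1) (subset_univ W)) := fun k => by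
  obtain ⟨x, hx⟩ := k (cl_ang hs).cls
  let G : Circle × ℝ → (Circle × ℂ) × ℝ := fun p => ((1, (p.2 : ℂ) * p.1), t₁ + p.2 * (t₀ - t₁))
  have m : ∀ p, G p ∈ Ur v a := fun p => (em (p.2 = 0)).elim (fun e => .inr (by simpa [G, e] using h₁))
    fun e => .inl (mul_ne_zero (Complex.ofReal_ne_zero.2 e) p.1.coe_ne_zero)
  have s : ∀ p, ContMDiffAt ((𝓡 1).prod 𝓘(ℝ, ℝ)) (𝓡 4) ∞ (T.rod v hu ∘ G) p := fun p =>
    (ld_pd (T.rod v hu) (m p)).contMDiffAt.comp p ((contMDiffAt_const.prodMk (Cab39.cmul (Cab39.creal contMDiffAt_snd)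
      (Cab39.ccoe contMDiffAt_fst))).prodMk (contMDiffAt_const.add (contMDiffAt_snd.mul contMDiffAt_const)))
  have h : Ht (𝓡 1) (𝓡 4) univ univ (T.rod v hu ∘ G) := ⟨fun _ _ _ _ => s _, fun _ _ _ _ => trivial⟩
  have g : Mp (𝓡 1) (𝓡 4) univ W fun u => T.rod v hu (G (u, 1)) :=
    ⟨(h.mp (right_mem_Icc.2 zero_le_one)).sm, fun u _ => h₀ _ (by rw [T.time_rod hu (m _)]; simp [G])⟩
  have e := h.st_eq isOpen_univ (Mp.const univ (mem_univ (T.rod v hu ((1, 0), t₁)))) (g.mono Subset.rfl (subset_univ _))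
    (fun _ _ => by simp [G]) (fun _ _ => rfl) x
  rw [st_const (mem_univ _), ← g.st_res (subset_univ W), hx, g.st_cls] at e
  refine not_ex_oC ((cls_eq_zero.1 e.symm).congr fun u _ => ?_)
  rw [pm_ang (φ := fun u => T.rod v hu (G (u, 1))) (hs _ (g.maps trivial)) ((g.sm u trivial).mdifferentiableAt ne0), oC]
  refine congrArg (ang (𝓡 1) · u) (funext fun y => ?_)
  rw [comp_apply, hθ.thx_eq (T.rod_mem_tor hu (m _)), chi_rod hu (by simp [G]), ha]
  simp [G, Cab39.dir_coe]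

variable {w : ℤ → Z2} {i j : ℤ} {r r' : ℝ} {α α' : N → Ext EN} {m m' : ℤ → ℝ × ℝ} {n n' : ℤ → ℝ}
  {F F' : X T (wd w) → Ext E4} {U : Set (X T (wd w))}

theorem hd_end [SigmaCompactSpace (X T (wd w))] (hw : IsWd w) (hij : i ≤ j) (h : ∀ l, j ≤ l → w l = w j) :
    Hd (𝓡 4) (T.time (wd w) ⁻¹' Iio (i + 1)) univ (nv w i j) := by
  have e : (i : ℝ) ≤ j := by exact_mod_cast hij
  have k := (rg_of_time (T := T) (v := wd w) isOpen_univ convex_univ).hd hw one_pos (fun _ _ _ => univ_nonempty)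
    hij (β' := i) (β := i + 1) (γ := j + 1) (lt_add_one _) le_rfl Ioo_subset_Jr (by linarith) (lt_add_one _)
    (subset_univ _) isOpen_univ convex_univ (subset_univ _) fun x _ _ e => Ioi_subset_Jr (fun l a => .inl (h l a)) e
  rwa [← rg_time, preimage_univ, univ_inter, univ_inter] at k

/-- forms with the same orders are cohomologous -/
theorem wf_ex [SigmaCompactSpace (X T (wd w))] (h : WF T w r α m n F) (h' : WF T w r' α' m' n' F') {k : ℤ → ℤ}
    (hk : ∀ j, dr (m j) (w j) = k j) (hk' : ∀ j, dr (m' j) (w j) = k j)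
    (hη : ∀ i, ∃ η, dot η (w (i - 1)) = k (i - 1) ∧ dot η (w i) = k i) : Ex (𝓡 4) univ (F' - F) := by
  obtain ⟨p, s, t⟩ := exists_TL_wd T hη
  obtain ⟨b, h1, -, h2⟩ := h.exists_conn hk isOpen_univ t
  obtain ⟨b', h3, -, h4⟩ := h'.exists_conn hk' isOpen_univ t
  exact (Uni.ex_F (L := ⟨p, b⟩) (L' := ⟨p, b'⟩) isOpen_univ (Iso.refl isOpen_univ h1).toUni h1 h3).congr
    fun x hx => by rw [Pi.sub_apply, Pi.sub_apply, h2 hx, h4 hx]

variable [MeasurableSpace E4] [BorelSpace E4]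

/-- intersection numbers, with the sign of the tube -/
theorem wc_ip [MeasurableSpace (X T (wd w))] [BorelSpace (X T (wd w))] [SecondCountableTopology (X T (wd w))]
    {o : N → Ext EN} {O : X T (wd w) → Ext E4} {σ : ℤ} (hO : OX T (wd w) o O) (hσ : σ = 1 ∨ σ = -1)
    (hτ : Pos Rod53.IT IN T.τ {z | z.2 ≠ 0} ((σ : ℝ) • oT) o) (hw : IsWd w) (hU : IsOpen U) (h : WC T w U F m)
    (h' : WF T w r' α' m' n' F') (hc : Cs (𝓡 4) 2 U F') {S : Finset ℤ} (hS : ∀ j, j ∉ S → m' (j + 1) = m' j) :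
    ip (𝓡 4) O F F' = -(σ * (4 * π ^ 2) * ∑ j ∈ S, det2 (m j) (m' (j + 1) - m' j)) := by
  rcases hσ with rfl | rfl
  · rw [h.ip_eq hO (by simpa using hτ) hw hU h' hc hS]
    push_cast; ring
  · rw [← neg_neg O, ip_neg_ori, h.ip_eq hO.neg (pos_neg_left.1 (by simpa using hτ)) hw hU h' hc hS]
    push_cast; ring

/-! ### the word `a | b | e` -/

theorem wZ_lo {l : ℤ} (h : l ≤ -2) : wZ l = (1, 0) := if_pos (by omega)

theorem wZ_hi {l : ℤ} (h : 0 ≤ l) : wZ l = (0, 1) := by rw [wZ, w2, if_neg (by omega), if_neg (by omega)]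

variable [CompactSpace N] {e g : X T (wd wZ) → Ext E4}

omit [MeasurableSpace E4] [BorelSpace E4] in
theorem csE (h : WF T wZ (1 / 10) 0 mE (fun _ => 0) e) :
    Cs (𝓡 4) 2 (T.time (wd wZ) ⁻¹' Icc (-5 / 3) (2 / 3)) e := by
  have := h.cs_time (xa_zero T 1) (by norm_num) isZ (i := -2) (j := 1) (s := 0) (s' := 0)
    (fun l a => ⟨by rw [mE, if_neg (by omega), if_neg (by omega), zero_smul], rfl⟩)
    fun l a => ⟨by rw [mE, if_neg (by omega), if_neg (by omega), zero_smul], rfl⟩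
  convert this using 3 <;> norm_num

omit [MeasurableSpace E4] [BorelSpace E4] in
theorem csG (hθ : Ang T θ (0, 1)) (h : WF T wZ (1 / 10) (ang IN θ) mG nG g) :
    Cs (𝓡 4) 2 (T.time (wd wZ) ⁻¹' Icc (-2 / 3) (2 / 3)) g := by
  have := h.cs_time (xa_ang hθ 1) (by norm_num) isZ (i := -1) (j := 1) (s := 1) (s' := 0)
    (fun l a => ⟨by rw [mG, if_pos (by omega)]; simp, if_pos (by omega)⟩)
    fun l a => ⟨by rw [mG, if_neg (by omega), if_neg (by omega), zero_smul], if_neg (by omega)⟩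
  convert this using 3 <;> norm_num

theorem cases3 (l : ℤ) : l ≤ -2 ∨ l = -1 ∨ l = 0 ∨ 1 ≤ l := by omega

omit [MeasurableSpace E4] [BorelSpace E4] in
theorem exEG [SigmaCompactSpace (X T (wd wZ))] (h : WF T wZ (1 / 10) 0 mE (fun _ => 0) e)
    (h' : WF T wZ (1 / 10) (ang IN θ) mG nG g) : Ex (𝓡 4) univ (g - e) := by
  refine wf_ex h h' (k := fun l => if l = -1 then 1 else 0) (fun l => ?_) (fun l => ?_) fun l => ?_
  · rcases cases3 l with a | rfl | rfl | a
    · rw [mE, if_neg (by omega), if_neg (by omega), if_neg (by omega)]; simp [dr]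
    · simp [mE, wZ, w2, dr]
    · simp [mE, wZ, w2, dr]
    · rw [mE, if_neg (by omega), if_neg (by omega), if_neg (by omega)]; simp [dr]
  · rcases cases3 l with a | rfl | rfl | a
    · rw [mG, if_pos (by omega), if_neg (by omega), wZ_lo a]; simp [dr]
    · simp [mG, wZ, w2, dr]
    · simp [mG, wZ, w2, dr]
    · rw [mG, if_neg (by omega), if_neg (by omega), if_neg (by omega)]; simp [dr]
  · rcases cases3 l with a | rfl | rfl | a
    · exact ⟨0, by rw [if_neg (by omega), zero_dot], by rw [if_neg (by omega), zero_dot]⟩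
    · exact ⟨(0, 1), rfl, rfl⟩
    · exact ⟨(1, 0), rfl, rfl⟩
    · exact ⟨0, by rw [if_neg (by omega), zero_dot], by rw [if_neg (by omega), zero_dot]⟩

theorem ipEE [MeasurableSpace (X T (wd wZ))] [BorelSpace (X T (wd wZ))] [SecondCountableTopology (X T (wd wZ))]
    {o : N → Ext EN} {O : X T (wd wZ) → Ext E4} {σ : ℤ} (hO : OX T (wd wZ) o O) (hσ : σ = 1 ∨ σ = -1)
    (hτ : Pos Rod53.IT IN T.τ {z | z.2 ≠ 0} ((σ : ℝ) • oT) o) (h : WF T wZ (1 / 10) 0 mE (fun _ => 0) e) :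
    ip (𝓡 4) O e e = σ * (4 * π ^ 2) := by
  rw [wc_ip hO hσ hτ isZ isOpen_univ (h.wc univ) h ((csE h).mono (subset_univ _)) (S := {-2, -1, 0}) fun l a => by
    simp only [Finset.mem_insert, Finset.mem_singleton, not_or] at a
    rw [mE, mE, if_neg (by omega), if_neg (by omega), if_neg (by omega), if_neg (by omega)]]
  simp [mE, det2]

end Crest.Agent.X212.Nv17
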