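import Crest.Agent.X212.Nv17.Bas

/-!
# X212 / Nv17 (helper17): NV-ISO

* `kb_one` : the classes of the word `a | b | e` that vanish far left form at most a line;  `iso : IsoStmt`.
-/

set_option autoImplicit false
set_option linter.unusedSectionVars false

open Set Filter Topology Function Module
open scoped ContDiff Manifold Real
open Crest.Agent.R208 Crest.Agent.R208.FI
open Crest.Agent.R208.F hiding wd
open Crest.Agent.X212.Int54 (Ori SameOn)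
open Crest.Agent.X212.Line51 hiding tp Uni
open Crest.Agent.X212.Orx52 Crest.Agent.X212.Rod53 Crest.Agent.X212.Dr59 Crest.Agent.X212.Nv5
open Crest.Agent.X212.Bor5.T (Tub O3 W4 Fo w1 w2)

noncomputable section

namespace Crest.Agent.X212.Nv17

variable {τ : Tub} {ϑ : τ.N.M → Circle}

theorem kb_one (hϑ : Ang τ.T ϑ (0, 1)) {i : ℤ} (hi : i ≤ -2) :
    Kb (𝓡 4) 2 (subset_univ (τ.T.time (wd wZ) ⁻¹' Iio (i + 1))) 1 := by
  have := τ.T.secondCountable isZ.loc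
  have := Orx52.sigmaCompact (𝓡 4) (τ.X (wd wZ))
  obtain ⟨p, q, e, k⟩ := (hd_end (T := τ.T) isZ (i := i) (j := 0) (by omega) fun l a => wZ_hi a).hn
  have n2 : nv wZ i 0 ≤ 2 := nv_le (s := {-1, 0}) fun c _ b u => by
    by_contra a
    simp only [Finset.mem_insert, Finset.mem_singleton, not_or] at a
    rw [wZ_lo (by omega), wZ_lo (by omega)] at u
    exact absurd u (by simp [Uni, dt])
  refine Rk.mono k.kb (by_contra fun a => ?_)
  obtain rfl : q = 0 := by omega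
  refine not_surj hϑ (a := (1, 1)) (b := (0, 1)) (.inl rfl) rfl (t₀ := i) (t₁ := -1 / 2)
    (Ioo_subset_Jr (a := wZ) (i := -1) (by norm_num)) (fun x hx => hϑ.csm fun _ => ?_)
    (fun x hx => hx.trans_lt (lt_add_one _)) fun y => ?_
  · filter_upwards [isOpen_Iio.mem_nhds hx] with t ht
    exact (dot_pm (Jr.pm (Iio_subset_Jr (a := wZ) (α := (1, 0)) (j := i) (fun l a => .inl (wZ_lo (by omega))) ht))).2 rfl
  · exact (Submodule.Quotient.mk_eq_zero _).1 (rk_zero.1 k.cb _)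

variable {Y : O3} {f : Fo τ Y (1, 0)} {N : Nk Y} {Z : W4} {v : ℝ → Z2} {hv : Loc v}

/-- the chart of the rod part -/
def rp (J : Jc f N hv Z) : PartialDiffeomorph (𝓡 4) Z.X.P.I (τ.X v) Z.M ∞ := J.r.φ

theorem rp_src (J : Jc f N hv Z) : (rp J).source = τ.T.time v ⁻¹' Ioi N.α := J.r.src

theorem rp_tgt (J : Jc f N hv Z) : (rp J).target = Z.X.τ ⁻¹' Ioi N.α := J.r.tgt

theorem rp_pos (J : Jc f N hv Z) : Pos (𝓡 4) Z.X.P.I (rp J) (rp J).source (oX hv τ.ori) Z.o := rp_src J ▸ J.pr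

theorem sub_src (J : Jc f N hv Z) {x y : ℝ} (h : -2 ≤ x) : τ.T.time v ⁻¹' Icc x y ⊆ (rp J).source := fun _ hp =>
  (rp_src J).ge ((N.lt.trans_le (N.hb.trans h)).trans_le hp.1)

section ms

variable [MeasurableSpace E4] [BorelSpace E4] [MeasurableSpace (τ.X v)] [BorelSpace (τ.X v)]
  [SecondCountableTopology (τ.X v)]

/-- transport of a form with compact support from the rod part -/
theorem ip_r (J : Jc f N hv Z) {e : τ.X v → Ext E4} {x y : ℝ} (h : -2 ≤ x)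
    (he : Cs (𝓡 4) 2 (τ.T.time v ⁻¹' Icc x y) e) (c : Z.Fm) :
    ip Z.X.P.I Z.o c (psh J.r.φ e) = ip (𝓡 4) (oX hv τ.ori) (pm (𝓡 4) Z.X.P.I (rp J) c) e :=
  he.ip_psh (rp J) (sub_src J h) Z.ori (oX_spec hv τ.ori).ori (same_symm ((rp_pos J).mono (sub_src J h))) c

/-- transport of a form with compact support to the rod part -/
theorem exists_r (J : Jc f N hv Z) {z : Z.Fm} (h : Cs Z.X.P.I 2 (Z.X.τ ⁻¹' Ioi N.α) z) :
    ∃ z₀ : τ.X v → Ext E4, Cs (𝓡 4) 2 (τ.T.time v ⁻¹' Ioi N.α) z₀ ∧ Z.sq z = ip (𝓡 4) (oX hv τ.ori) z₀ z₀ ∧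
      EqOn (pm (𝓡 4) Z.X.P.I (rp J) z) z₀ (τ.T.time v ⁻¹' Ioi N.α) := by
  rw [← rp_src J]
  rw [← rp_tgt J] at h
  refine ⟨psh (rp J).symm z, (h.psh (rp J).symm Subset.rfl).mono ?_, ?_, fun p hp => ?_⟩
  · rintro _ ⟨p, hp, rfl⟩
    exact (rp J).map_target hp
  · exact ((h.ip_psh (rp J).symm Subset.rfl (oX_spec hv τ.ori).ori Z.ori (same_symm
      ((rp J).image_source_eq_target ▸ (rp_pos J).symm Subset.rfl)) _).trans
      (h.ip_congr fun p hp => pm_psh (rp J).symm hp _)).symm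
  · exact (indicator_of_mem hp _).symm

end ms

/-- **NV-ISO** -/
theorem iso : IsoStmt := by
  rintro τ Y f N Z J ϑ _ _ hϑ ⟨e, he, rfl⟩ ⟨g, hg, rfl⟩
  have := τ.T.secondCountable isZ.loc
  have := Orx52.sigmaCompact (𝓡 4) (τ.X (wd wZ))
  borelize E4 (τ.X (wd wZ))
  have hO := oX_spec isZ.loc τ.ori
  have ee := ipEE hO τ.hσ τ.pos he
  have e0 : ip (𝓡 4) (oX isZ.loc τ.ori) e e ≠ 0 := by
    rw [ee]
    rcases τ.hσ with a | a <;> simp [a, Real.pi_ne_zero]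
  have a2 : N.α < -2 := N.lt.trans_le N.hb
  have ce := (csE he).mono (subset_univ _)
  refine ⟨(ip (𝓡 4) (oX isZ.loc τ.ori) e e)⁻¹, fun z hz => ?_⟩
  obtain ⟨z₀, h1, h2, h3⟩ := exists_r J hz
  have cz := h1.mono (subset_univ _)
  rw [h2, ip_r J (by norm_num) (csE he), ip_r J (by norm_num) (csG hϑ hg),
    (csE he).ip_congr (h3.mono fun p hp => lt_of_lt_of_le (a2.trans (by norm_num)) hp.1),
    (csG hϑ hg).ip_congr (h3.mono fun p hp => lt_of_lt_of_le (a2.trans (by norm_num)) hp.1)]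
  refine ⟨?_, by rw [ip_comm cz.cl.dg, ip_comm cz.cl.dg, cz.ip_coh hO.ori hg.tg.cl.sm he.tg.cl.sm (exEG he hg)]⟩
  have k := kb_one hϑ (i := ⌊N.α⌋ - 1) (by have := Int.floor_lt.2 (show N.α < (-2 : ℤ) by simpa using a2); omega)
  have hf : ((⌊N.α⌋ - 1 : ℤ) : ℝ) + 1 ≤ N.α := by push_cast; linarith [Int.floor_le N.α]
  have m : ∀ {c} (hc : Cs (𝓡 4) 2 (τ.T.time (wd wZ) ⁻¹' Ioi N.α) c), hc.cl.cls ∈ LinearMap.ker (res (I := 𝓡 4)
      (k := 2) (subset_univ (τ.T.time (wd wZ) ⁻¹' Iio ((⌊N.α⌋ - 1 : ℤ) + 1)))) := fun hc =>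
    cls_eq_zero.2 (ex_of_zero fun p hp => hc.eq_zero fun a => lt_asymm a (lt_of_lt_of_le hp hf))
  have ce' : Cs (𝓡 4) 2 (τ.T.time (wd wZ) ⁻¹' Ioi N.α) e := (csE he).mono fun p hp => lt_of_lt_of_le (a2.trans (by norm_num)) hp.1
  obtain ⟨s, hs⟩ := Rk.surj_of_ne k (f := LinearMap.toSpanSingleton ℝ _ ⟨_, m ce'⟩) (x := 1) (fun a => e0
    (ce.ip_ex hO.ori (cls_eq_zero.1 (by simpa using congrArg Subtype.val a)))) ⟨_, m h1⟩
  have x : Ex (𝓡 4) univ (z₀ - s • e) := cls_eq.1 ((congrArg Subtype.val hs).symm.trans (cls_smul s ce'.cl).symm)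
  have x1 := ce.ip_coh hO.ori cz.cl.sm (ce.cl.smul s).sm x
  rw [cz.ip_coh hO.ori cz.cl.sm (ce.cl.smul s).sm x, ip_smul, ip_comm ce.cl.dg, x1, ip_smul]
  field_simp

end Crest.Agent.X212.Nv17
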