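import Crest.Agent.X212.Nv17.Iso
import Crest.Agent.X212.Rfl19.Stm

/-!
# X212 / Nv17 (helper17): NV-LBL

* `tl_of_pb` : the determinant line of a class with labels, on an open set;  `lbl : LblStmt`.
-/

set_option autoImplicit false
set_option linter.unusedSectionVars false

open Set Filter Topology Function Module
open scoped ContDiff Manifold Real
open Crest.Agent.R208 Crest.Agent.R208.FI
open Crest.Agent.R208.F hiding wd
open Crest.Agent.X212.Line51 hiding tp Uni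
open Crest.Agent.X212.Orx52 Crest.Agent.X212.Rod53 Crest.Agent.X212.Dr59 Crest.Agent.X212.Nv5
open Crest.Agent.X212.Bor5.T (Tub O3 W4 Fo w1 w2 Pb Lc)
open Crest.Agent.X212.Lab56 (Cls Dat mk_eq_iff tl_congr_p)
open Crest.Agent.X212.Rfl19 (pb_comp pb_mono mem_r sig)

noncomputable section

namespace Crest.Agent.X212.Nv17

theorem tl_of_pb {τ : Tub} {W : W4} {v : ℝ → Z2} (hv : Loc v) {φ : τ.X v → W.M} {U : Set (τ.X v)} (hU : IsOpen U)
    {D : Dat W.X.P.I (univ : Set W.M)} {d₀ : Cls (𝓡 4) (univ : Set (τ.X v))} (p : Pb φ U (Quot.mk _ D : W.L) d₀)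
    {n N : ℕ} {R : Lab56.Ref τ.T (Fin n) (Fin N)} {m : ℝ → ℤ} (l : Lc R d₀ m) :
    ∃ s, TL τ.T v m (fun x => D.d.det (φ x)) s U := by
  obtain ⟨hf, e⟩ := p
  obtain ⟨D₀, rfl, u, -, t⟩ := l
  have := sig (τ := τ) hv
  have k := D.ok.pull hf (mapsTo_univ U _)
  have k₀ := D₀.ok.mono (subset_univ U)
  have e' : (Quot.mk _ ⟨_, _, _, k₀⟩ : Cls (𝓡 4) U) = Quot.mk _ ⟨_, _, _, k⟩ := e.symm
  obtain ⟨u, i⟩ := (mk_eq_iff hU).1 e'
  have t' := (t.mono (subset_univ U)).trans hU (i.dm k₀ k)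
  exact ⟨_, t'⟩

theorem wZ_eq {l : ℤ} (h : -1 ≤ l) : wZ l = w1 (1, 1) (0, 1) l := (Rfl19.w21 _ h).symm

/-- **NV-LBL** -/
theorem lbl : LblStmt := by
  rintro S τ X Y f N T ϑ _ n m R hϑ ⟨g, hg, rfl⟩
  refine ⟨τ.σ * (4 * π ^ 2), by rcases τ.hσ with a | a <;> simp [a, Real.pi_ne_zero], ?_⟩
  rintro D _ d k k' _ ⟨-, p⟩ ⟨d₀, p₀, l⟩ ⟨D', rfl, a, ha, rfl⟩
  have := τ.T.secondCountable isZ.loc
  borelize E4 (τ.X (wd wZ))
  have o : ∀ {v}, IsOpen (τ.T.time v ⁻¹' Ioi (-3 / 4)) := isOpen_Ioi.preimage τ.T.continuous_time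
  have o1 : ∀ {t : ℝ}, -3 / 4 < t → t ∈ Ioo ((-1 : ℤ) : ℝ) (⌊t⌋ + 1) := fun ht => mem_r (by push_cast; linarith)
  obtain ⟨s, t⟩ := tl_of_pb (W := T.Z') (X.h1 eg).loc o (pb_comp p (pb_mono p₀ (subset_univ _)) fun y hy => by
    rw [T.ga, T.d2, mem_ofPred_eq, add_zero, (X.r1 eg).K.tm y trivial]
    exact hy) l
  have ag : τ.T.time (wd wZ) ⁻¹' Ioi (-3 / 4) ⊆ τ.T.ag (wd wZ) (wd (w1 (1, 1) (0, 1))) := fun y hy =>
    .inr (interior_maximal (fun t ht => wd_congr (fun _ a _ => wZ_eq a) (o1 ht)) isOpen_Ioi hy)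
  have tm := fun y hy => (TE.refl τ.T).time_fn (ag (a := y) hy)
  have t' : TL τ.T (wd wZ) (wm wZ fun j => w2 0 k k' (j + 1)) (fun y => D'.d.det (rp T.J' y)) _
      (τ.T.time (wd wZ) ⁻¹' Ioi (-3 / 4)) :=
    tl_congr_p o (((t.fn (TE.refl τ.T)).mono fun y hy => ⟨ag hy, lt_of_lt_of_eq hy (tm y hy).symm⟩).congr_m fun y hy _ =>
      eventually_of_mem (isOpen_Ioi.mem_nhds hy) fun t ht =>
        wm_congr (fun _ a _ => wZ_eq a) (fun _ a _ => (Rfl19.w21 _ a).symm) (o1 ht)) fun y hy =>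
      congrArg D'.d.det ((T.gr _ (lt_of_lt_of_eq hy (tm y hy).symm)).trans (congrArg T.J'.r (fn_fn (ag hy)))).symm
  have hm : Mp (𝓡 4) T.Z'.X.P.I (τ.T.time (wd wZ) ⁻¹' Ioi (-3 / 4)) univ (rp T.J') :=
    ⟨fun y hy => (ld_pd (rp T.J') ((rp_src T.J').ge
      (lt_trans (N.lt.trans_le (N.hb.trans (by norm_num))) hy))).contMDiffAt, mapsTo_univ _ _⟩
  have c := (csG hϑ hg).mono (L := τ.T.time (wd wZ) ⁻¹' Ioi (-3 / 4)) fun y hy => lt_of_lt_of_le (by norm_num) hy.1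
  have wc := wc_line' (e := fun j => if j < -1 then 0 else if j = -1 then (0, k) else (k - k', k')) (fun j => by
    rcases cases3 j with b | rfl | rfl | b
    · rw [if_pos (by omega), zero_dot, zero_dot, Rfl19.w2_neg (by omega), Rfl19.w2_neg (by omega)]
      exact ⟨rfl, rfl⟩
    · simp [wZ, w2, dot]
    · simp [wZ, w2, dot]
    · rw [if_neg (by omega), if_neg (by omega), wZ_hi (by omega), wZ_hi (by omega), Rfl19.w2_pos (by omega),
        Rfl19.w2_pos (by omega)]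
      simp [dot]) o (ha.pull hm) t'
  rw [ip_r T.J' (by norm_num) (csG hϑ hg), ← c.ip_congr fun y hy => ha.F_pull isOpen_univ o hm hy,
    wc_ip (oX_spec _ _) τ.hσ τ.pos isZ o wc hg c (S := {-1, 0}) fun j b => by
      simp only [Finset.mem_insert, Finset.mem_singleton, not_or] at b
      rcases lt_or_ge j 0 with e | e
      · rw [mG, mG, if_pos e, if_pos (by omega)]
      · rw [mG, mG, if_neg (by omega), if_neg (by omega), if_neg (by omega), if_neg (by omega)]]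
  simp [mG, det2, rc2]
  ring

end Crest.Agent.X212.Nv17
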